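import Vale.Agent.P014U.X4M.TE.Tate

/-! # P014U: coordinates on the points of order `pp ^ k` -/

set_option autoImplicit false
set_option linter.all false

open NumberField Matrix
open scoped Classical

noncomputable section

namespace Vale.Agent.P014U.Kx.Tw

variable [Pp]

open WeierstrassCurve.Affine P027M.K
open X4M.TE

/-! ### coordinates -/

section

variable {a b : ℚ} (hD : 4 * a ^ 3 + 27 * b ^ 2 ≠ 0) (k : ℕ)

/-- reduction modulo `pp ^ k` -/
abbrev rz (k : ℕ) : ℤ_[pp] →+* ZMod (pp ^ k) := PadicInt.toZModPow k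

theorem rz_surj (v : Fin 2 → ZMod (pp ^ k)) : ∃ w : Fin 2 → ℤ_[pp], v = rz k ∘ w :=
  ⟨fun i => (v i).val, funext fun i => by simp⟩

theorem co_aux (w : Fin 2 → ℤ_[pp]) : ∑ i, ((rz k ∘ w) i).val • TM.cp k (bs hD i) =
    TM.cp k ((bs hD).equivFun.symm w) := by
  rw [Module.Basis.equivFun_symm_apply, map_sum]
  rfl

/-- **the point with given coordinates** -/
def co : (Fin 2 → ZMod (pp ^ k)) →+ (Cv Qb a b).Point :=
  AddMonoidHom.mk' (fun v => ∑ i, (v i).val • TM.cp k (bs hD i)) fun v v' => by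
    obtain ⟨w, rfl⟩ := rz_surj k v
    obtain ⟨w', rfl⟩ := rz_surj k v'
    rw [show rz k ∘ w + rz k ∘ w' = rz k ∘ (w + w') from funext fun i => (map_add _ _ _).symm,
      co_aux, co_aux, co_aux, map_add, map_add]

theorem co_rz (w : Fin 2 → ℤ_[pp]) : co hD k (rz k ∘ w) = TM.cp k ((bs hD).equivFun.symm w) :=
  co_aux hD k w

theorem co_inj : Function.Injective (co hD k) := (injective_iff_map_eq_zero _).2 fun v e => by
  obtain ⟨w, rfl⟩ := rz_surj k v
  obtain ⟨y, hy⟩ := TM.cp_eq_zero_iff.1 (co_rz hD k w ▸ e)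
  rw [(LinearEquiv.symm_apply_eq _).1 hy, map_smul]
  funext i
  simp only [Function.comp, Pi.smul_apply, smul_eq_mul, map_mul, Pi.zero_apply]
  rw [← Nat.cast_pow, map_natCast, ZMod.natCast_self, zero_mul]

theorem co_tors (v : Fin 2 → ZMod (pp ^ k)) : pp ^ k • co hD k v = 0 := by
  obtain ⟨w, rfl⟩ := rz_surj k v
  rw [co_rz, TM.pow_smul_cp]

theorem co_ex {y : (Cv Qb a b).Point} (hy : pp ^ k • y = 0) : ∃ v, co hD k v = y := by
  obtain ⟨x, rfl⟩ := TM.exists_cp (hdiv hD) hy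
  exact ⟨rz k ∘ (bs hD).equivFun x, by rw [co_rz, LinearEquiv.symm_apply_apply]⟩

theorem co_ga (g : GQ) (v : Fin 2 → ZMod (pp ^ k)) :
    co hD k ((mt hD g).map (rz k) *ᵥ v) = ga g (co hD k v) := by
  obtain ⟨w, rfl⟩ := rz_surj k v
  rw [show (mt hD g).map (rz k) *ᵥ (rz k ∘ w) = rz k ∘ (mt hD g *ᵥ w) from
    funext fun i => (RingHom.map_mulVec _ _ _ i).symm, co_rz, co_rz, ← cp_rho]
  refine congrArg _ ((LinearEquiv.symm_apply_eq _).2 ?_)
  have := LinearMap.toMatrix_mulVec_repr (bs hD) (bs hD) (rho a b g) ((bs hD).equivFun.symm w)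
  rw [← Module.Basis.equivFun_apply, LinearEquiv.apply_symm_apply] at this
  exact this

/-- change of the level -/
theorem co_lev (j : ℕ) (w : Fin 2 → ℤ_[pp]) :
    pp ^ j • co hD (k + j) (rz _ ∘ w) = co hD k (rz k ∘ w) := by rw [co_rz, co_rz, TM.cp_add]

end

end Vale.Agent.P014U.Kx.Tw
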